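import Vale.Agent.H8.B63.Sound
import Vale.Agent.H82.Borsuk63.SrgCheck

/-!
# Clique search for the graph of `Vale.Agent.H14.Borsuk63`: start vertices 0 to 21

Each theorem runs the checker of `Vale.Agent.H8.B63` on a short range of start vertices; the
runs are kept small because the kernel works faster on small runs.
-/

namespace Vale.Agent.H8.B63

theorem good_0_1 : Good 0 1 := good_of_chk 1 0 1 (by decide +kernel) rfl

theorem good_1_2 : Good 1 2 := good_of_chk 1 1 2 (by decide +kernel) rfl

theorem good_2_3 : Good 2 3 := good_of_chk 1 2 3 (by decide +kernel) rfl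

theorem good_3_4 : Good 3 4 := good_of_chk 1 3 4 (by decide +kernel) rfl

theorem good_4_5 : Good 4 5 := good_of_chk 1 4 5 (by decide +kernel) rfl

theorem good_5_6 : Good 5 6 := good_of_chk 1 5 6 (by decide +kernel) rfl

theorem good_6_7 : Good 6 7 := good_of_chk 1 6 7 (by decide +kernel) rfl

theorem good_7_8 : Good 7 8 := good_of_chk 1 7 8 (by decide +kernel) rfl

theorem good_8_9 : Good 8 9 := good_of_chk 1 8 9 (by decide +kernel) rfl

theorem good_9_10 : Good 9 10 := good_of_chk 1 9 10 (by decide +kernel) rfl

theorem good_10_11 : Good 10 11 := good_of_chk 1 10 11 (by decide +kernel) rfl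

theorem good_11_12 : Good 11 12 := good_of_chk 1 11 12 (by decide +kernel) rfl

theorem good_12_13 : Good 12 13 := good_of_chk 1 12 13 (by decide +kernel) rfl

theorem good_13_14 : Good 13 14 := good_of_chk 1 13 14 (by decide +kernel) rfl

theorem good_14_15 : Good 14 15 := good_of_chk 1 14 15 (by decide +kernel) rfl

theorem good_15_16 : Good 15 16 := good_of_chk 1 15 16 (by decide +kernel) rfl

theorem good_16_17 : Good 16 17 := good_of_chk 1 16 17 (by decide +kernel) rfl

theorem good_17_18 : Good 17 18 := good_of_chk 1 17 18 (by decide +kernel) rfl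

theorem good_18_19 : Good 18 19 := good_of_chk 1 18 19 (by decide +kernel) rfl

theorem good_19_20 : Good 19 20 := good_of_chk 1 19 20 (by decide +kernel) rfl

theorem good_20_21 : Good 20 21 := good_of_chk 1 20 21 (by decide +kernel) rfl

theorem good_21_22 : Good 21 22 := good_of_chk 1 21 22 (by decide +kernel) rfl

/-- the checker rejects every start vertex from `0` to `21` -/
theorem range_0_22 : Good 0 22 :=
  (good_0_1).trans ((good_1_2).trans ((good_2_3).trans ((good_3_4).trans ((good_4_5).trans ((good_5_6).trans ((good_6_7).trans ((good_7_8).trans ((good_8_9).trans ((good_9_10).trans ((good_10_11).trans ((good_11_12).trans ((good_12_13).trans ((good_13_14).trans ((good_14_15).trans ((good_15_16).trans ((good_16_17).trans ((good_17_18).trans ((good_18_19).trans ((good_19_20).trans ((good_20_21).trans (good_21_22)))))))))))))))))))))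

end Vale.Agent.H8.B63
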