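import Vale.Agent.H8.B63.Sound
import Vale.Agent.H8.B63.Run1

/-!
# Clique search for the graph of `Vale.Agent.H14.Borsuk63`: start vertices 22 to 53

Each theorem runs the checker of `Vale.Agent.H8.B63` on a short range of start vertices; the
runs are kept small because the kernel works faster on small runs.
-/

namespace Vale.Agent.H8.B63

theorem good_22_23 : Good 22 23 := good_of_chk 1 22 23 (by decide +kernel) rfl

theorem good_23_24 : Good 23 24 := good_of_chk 1 23 24 (by decide +kernel) rfl

theorem good_24_25 : Good 24 25 := good_of_chk 1 24 25 (by decide +kernel) rfl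

theorem good_25_26 : Good 25 26 := good_of_chk 1 25 26 (by decide +kernel) rfl

theorem good_26_27 : Good 26 27 := good_of_chk 1 26 27 (by decide +kernel) rfl

theorem good_27_28 : Good 27 28 := good_of_chk 1 27 28 (by decide +kernel) rfl

theorem good_28_29 : Good 28 29 := good_of_chk 1 28 29 (by decide +kernel) rfl

theorem good_29_30 : Good 29 30 := good_of_chk 1 29 30 (by decide +kernel) rfl

theorem good_30_31 : Good 30 31 := good_of_chk 1 30 31 (by decide +kernel) rfl

theorem good_31_32 : Good 31 32 := good_of_chk 1 31 32 (by decide +kernel) rfl

theorem good_32_33 : Good 32 33 := good_of_chk 1 32 33 (by decide +kernel) rfl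

theorem good_33_34 : Good 33 34 := good_of_chk 1 33 34 (by decide +kernel) rfl

theorem good_34_35 : Good 34 35 := good_of_chk 1 34 35 (by decide +kernel) rfl

theorem good_35_36 : Good 35 36 := good_of_chk 1 35 36 (by decide +kernel) rfl

theorem good_36_37 : Good 36 37 := good_of_chk 1 36 37 (by decide +kernel) rfl

theorem good_37_38 : Good 37 38 := good_of_chk 1 37 38 (by decide +kernel) rfl

theorem good_38_39 : Good 38 39 := good_of_chk 1 38 39 (by decide +kernel) rfl

theorem good_39_40 : Good 39 40 := good_of_chk 1 39 40 (by decide +kernel) rfl

theorem good_40_41 : Good 40 41 := good_of_chk 1 40 41 (by decide +kernel) rfl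

theorem good_41_42 : Good 41 42 := good_of_chk 1 41 42 (by decide +kernel) rfl

theorem good_42_43 : Good 42 43 := good_of_chk 1 42 43 (by decide +kernel) rfl

theorem good_43_44 : Good 43 44 := good_of_chk 1 43 44 (by decide +kernel) rfl

theorem good_44_45 : Good 44 45 := good_of_chk 1 44 45 (by decide +kernel) rfl

theorem good_45_46 : Good 45 46 := good_of_chk 1 45 46 (by decide +kernel) rfl

theorem good_46_47 : Good 46 47 := good_of_chk 1 46 47 (by decide +kernel) rfl

theorem good_47_48 : Good 47 48 := good_of_chk 1 47 48 (by decide +kernel) rfl

theorem good_48_49 : Good 48 49 := good_of_chk 1 48 49 (by decide +kernel) rfl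

theorem good_49_50 : Good 49 50 := good_of_chk 1 49 50 (by decide +kernel) rfl

theorem good_50_51 : Good 50 51 := good_of_chk 1 50 51 (by decide +kernel) rfl

theorem good_51_52 : Good 51 52 := good_of_chk 1 51 52 (by decide +kernel) rfl

theorem good_52_53 : Good 52 53 := good_of_chk 1 52 53 (by decide +kernel) rfl

theorem good_53_54 : Good 53 54 := good_of_chk 1 53 54 (by decide +kernel) rfl

/-- the checker rejects every start vertex from `22` to `53` -/
theorem range_22_54 : Good 22 54 :=
  (good_22_23).trans ((good_23_24).trans ((good_24_25).trans ((good_25_26).trans ((good_26_27).trans ((good_27_28).trans ((good_28_29).trans ((good_29_30).trans ((good_30_31).trans ((good_31_32).trans ((good_32_33).trans ((good_33_34).trans ((good_34_35).trans ((good_35_36).trans ((good_36_37).trans ((good_37_38).trans ((good_38_39).trans ((good_39_40).trans ((good_40_41).trans ((good_41_42).trans ((good_42_43).trans ((good_43_44).trans ((good_44_45).trans ((good_45_46).trans ((good_46_47).trans ((good_47_48).trans ((good_48_49).trans ((good_49_50).trans ((good_50_51).trans ((good_51_52).trans ((good_52_53).trans (good_53_54)))))))))))))))))))))))))))))))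

end Vale.Agent.H8.B63
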