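import Vale.Agent.H8.B63.Sound
import Vale.Agent.H8.B63.Run2

/-!
# Clique search for the graph of `Vale.Agent.H14.Borsuk63`: start vertices 54 to 99

Each theorem runs the checker of `Vale.Agent.H8.B63` on a short range of start vertices; the
runs are kept small because the kernel works faster on small runs.
-/

namespace Vale.Agent.H8.B63

theorem good_54_55 : Good 54 55 := good_of_chk 1 54 55 (by decide +kernel) rfl

theorem good_55_56 : Good 55 56 := good_of_chk 1 55 56 (by decide +kernel) rfl

theorem good_56_57 : Good 56 57 := good_of_chk 1 56 57 (by decide +kernel) rfl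

theorem good_57_58 : Good 57 58 := good_of_chk 1 57 58 (by decide +kernel) rfl

theorem good_58_59 : Good 58 59 := good_of_chk 1 58 59 (by decide +kernel) rfl

theorem good_59_60 : Good 59 60 := good_of_chk 1 59 60 (by decide +kernel) rfl

theorem good_60_62 : Good 60 62 := good_of_chk 2 60 62 (by decide +kernel) rfl

theorem good_62_63 : Good 62 63 := good_of_chk 1 62 63 (by decide +kernel) rfl

theorem good_63_65 : Good 63 65 := good_of_chk 2 63 65 (by decide +kernel) rfl

theorem good_65_67 : Good 65 67 := good_of_chk 2 65 67 (by decide +kernel) rfl

theorem good_67_68 : Good 67 68 := good_of_chk 1 67 68 (by decide +kernel) rfl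

theorem good_68_70 : Good 68 70 := good_of_chk 2 68 70 (by decide +kernel) rfl

theorem good_70_72 : Good 70 72 := good_of_chk 2 70 72 (by decide +kernel) rfl

theorem good_72_74 : Good 72 74 := good_of_chk 2 72 74 (by decide +kernel) rfl

theorem good_74_76 : Good 74 76 := good_of_chk 2 74 76 (by decide +kernel) rfl

theorem good_76_78 : Good 76 78 := good_of_chk 2 76 78 (by decide +kernel) rfl

theorem good_78_80 : Good 78 80 := good_of_chk 2 78 80 (by decide +kernel) rfl

theorem good_80_82 : Good 80 82 := good_of_chk 2 80 82 (by decide +kernel) rfl

theorem good_82_84 : Good 82 84 := good_of_chk 2 82 84 (by decide +kernel) rfl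

theorem good_84_87 : Good 84 87 := good_of_chk 3 84 87 (by decide +kernel) rfl

theorem good_87_90 : Good 87 90 := good_of_chk 3 87 90 (by decide +kernel) rfl

theorem good_90_92 : Good 90 92 := good_of_chk 2 90 92 (by decide +kernel) rfl

theorem good_92_94 : Good 92 94 := good_of_chk 2 92 94 (by decide +kernel) rfl

theorem good_94_96 : Good 94 96 := good_of_chk 2 94 96 (by decide +kernel) rfl

theorem good_96_98 : Good 96 98 := good_of_chk 2 96 98 (by decide +kernel) rfl

theorem good_98_100 : Good 98 100 := good_of_chk 2 98 100 (by decide +kernel) rfl

/-- the checker rejects every start vertex from `54` to `99` -/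
theorem range_54_100 : Good 54 100 :=
  (good_54_55).trans ((good_55_56).trans ((good_56_57).trans ((good_57_58).trans ((good_58_59).trans ((good_59_60).trans ((good_60_62).trans ((good_62_63).trans ((good_63_65).trans ((good_65_67).trans ((good_67_68).trans ((good_68_70).trans ((good_70_72).trans ((good_72_74).trans ((good_74_76).trans ((good_76_78).trans ((good_78_80).trans ((good_80_82).trans ((good_82_84).trans ((good_84_87).trans ((good_87_90).trans ((good_90_92).trans ((good_92_94).trans ((good_94_96).trans ((good_96_98).trans (good_98_100)))))))))))))))))))))))))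

end Vale.Agent.H8.B63
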