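import Vale.Agent.H8.B63.Sound
import Vale.Agent.H8.B63.Run3

/-!
# Clique search for the graph of `Vale.Agent.H14.Borsuk63`: start vertices 100 to 320

Each theorem runs the checker of `Vale.Agent.H8.B63` on a short range of start vertices; the
runs are kept small because the kernel works faster on small runs.
-/

namespace Vale.Agent.H8.B63

theorem good_100_102 : Good 100 102 := good_of_chk 2 100 102 (by decide +kernel) rfl

theorem good_102_104 : Good 102 104 := good_of_chk 2 102 104 (by decide +kernel) rfl

theorem good_104_106 : Good 104 106 := good_of_chk 2 104 106 (by decide +kernel) rfl

theorem good_106_109 : Good 106 109 := good_of_chk 3 106 109 (by decide +kernel) rfl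

theorem good_109_112 : Good 109 112 := good_of_chk 3 109 112 (by decide +kernel) rfl

theorem good_112_115 : Good 112 115 := good_of_chk 3 112 115 (by decide +kernel) rfl

theorem good_115_119 : Good 115 119 := good_of_chk 4 115 119 (by decide +kernel) rfl

theorem good_119_123 : Good 119 123 := good_of_chk 4 119 123 (by decide +kernel) rfl

theorem good_123_127 : Good 123 127 := good_of_chk 4 123 127 (by decide +kernel) rfl

theorem good_127_131 : Good 127 131 := good_of_chk 4 127 131 (by decide +kernel) rfl

theorem good_131_134 : Good 131 134 := good_of_chk 3 131 134 (by decide +kernel) rfl

theorem good_134_137 : Good 134 137 := good_of_chk 3 134 137 (by decide +kernel) rfl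

theorem good_137_140 : Good 137 140 := good_of_chk 3 137 140 (by decide +kernel) rfl

theorem good_140_145 : Good 140 145 := good_of_chk 5 140 145 (by decide +kernel) rfl

theorem good_145_151 : Good 145 151 := good_of_chk 6 145 151 (by decide +kernel) rfl

theorem good_151_157 : Good 151 157 := good_of_chk 6 151 157 (by decide +kernel) rfl

theorem good_157_165 : Good 157 165 := good_of_chk 8 157 165 (by decide +kernel) rfl

theorem good_165_177 : Good 165 177 := good_of_chk 12 165 177 (by decide +kernel) rfl

theorem good_177_187 : Good 177 187 := good_of_chk 10 177 187 (by decide +kernel) rfl

theorem good_187_202 : Good 187 202 := good_of_chk 15 187 202 (by decide +kernel) rfl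

theorem good_202_226 : Good 202 226 := good_of_chk 24 202 226 (by decide +kernel) rfl

theorem good_226_321 : Good 226 321 := good_of_chk 95 226 321 (by decide +kernel) rfl

/-- the checker rejects every start vertex from `100` to `320` -/
theorem range_100_321 : Good 100 321 :=
  (good_100_102).trans ((good_102_104).trans ((good_104_106).trans ((good_106_109).trans ((good_109_112).trans ((good_112_115).trans ((good_115_119).trans ((good_119_123).trans ((good_123_127).trans ((good_127_131).trans ((good_131_134).trans ((good_134_137).trans ((good_137_140).trans ((good_140_145).trans ((good_145_151).trans ((good_151_157).trans ((good_157_165).trans ((good_165_177).trans ((good_177_187).trans ((good_187_202).trans ((good_202_226).trans (good_226_321)))))))))))))))))))))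

end Vale.Agent.H8.B63
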