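import Vale.Agent.H14.Borsuk63.Data

/-!
# A verified bit-mask clique search for the graph of `Vale.Agent.H14.Borsuk63`

A search state is a natural number `X = 2 ^ 64 * x + t`, where `x` is a bit mask of candidate
vertices and `t < 2 ^ 64` is a tag which plays no role in the semantics; the tag only makes the
low 64 bits of all the states of one run pairwise distinct (the kernel hashes a numeral by its
low 64 bits, and its caches degrade badly when many sparse masks share them).

`hc d X` searches for a chain `v_1 < v_2 < ... < v_d` of set bits of `x` such that
`adj v_i v_j = true` whenever `i < j`.  All loops are written with recursors and with the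
primitive arithmetic functions, so that kernel evaluation is fast.  The index of the lowest set
bit is guessed by a table lookup and the guess is validated at run time, so that the soundness
proof does not depend on the table.
-/

namespace Vale.Agent.H8.B63

open Vale.Agent.H14.Borsuk63

/-- lookup table: the `9`-bit digit at position `2 ^ k % 347` is `k`, for `k < 321` -/
def tbl : ℕ := 4428992059468084293277769611232495390020912367619054228657573374006754900764390599603587151345264704952248783225855640113367934825459250561894532054466709720595946526719994017830759747035739039221393344394477187412386829076831810242257324532223834859868330575869734856906095126224899942861752035087147311565630841202234885917989687292336673851347806804575254531641041274185353184491922541306217984083099276094223711611534928105202058634688651141023025208047855663029258850681185978104914257409281437701323176186151163093180521189556344614982188872465296886775325873091616651979178222213280242099868395238255333600644747189973176744378914153639896473065505121194351725891639254063815735421507078282896463945945163543246239890702633641434544245009967302515988718654011650895683883649472263548960626464201810515140555021541840828353738765244582952822283167791773256626283561129719754170289348608923656763115325074940716203963411174553163137024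

/-- assemble a state from a mask and a tag -/
def mk (a t : ℕ) : ℕ := Nat.add (Nat.mul (Nat.pow 2 64) a) (Nat.mod t (Nat.pow 2 64))

/-- a guess for the index of the lowest set bit of the mask of `X` -/
def guess (X : ℕ) : ℕ :=
  Nat.mod (Nat.shiftRight tbl
    (Nat.mul 9 (Nat.mod (Nat.xor (Nat.shiftRight X 64)
      (Nat.land (Nat.shiftRight X 64) (Nat.sub (Nat.shiftRight X 64) 1))) 347))) 512

/-- body of the loop: `k` is the guessed index of the lowest set bit of the mask of `X`;
if the guess is wrong the answer is `true` -/
def body (h lp : ℕ → Bool) (X k : ℕ) : Bool :=
  Bool.rec (motive := fun _ => Bool)
    true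
    (Bool.rec (motive := fun _ => Bool)
      (lp (mk (Nat.xor (Nat.shiftRight X 64) (Nat.pow 2 k)) (Nat.succ X)))
      true
      (h (mk (Nat.land (Nat.xor (Nat.shiftRight X 64) (Nat.pow 2 k))
                (Nat.shiftRight big (Nat.mul 416 k)))
            (Nat.mul (Nat.succ X) 512))))
    (Nat.beq (Nat.mod (Nat.shiftRight X 64) (Nat.pow 2 (Nat.succ k))) (Nat.pow 2 k))

/-- one step of the loop over the set bits of the mask of `X`, lowest first -/
def loopStep (h lp : ℕ → Bool) (X : ℕ) : Bool :=
  Nat.rec (motive := fun _ => Bool) false
    (fun y _ =>
      Bool.rec (motive := fun _ => Bool) false
        (Nat.rec (motive := fun _ => Bool)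
          (body h lp (Nat.succ y) 0)
          (fun j _ => body h lp (Nat.succ y) (Nat.succ j))
          (guess (Nat.succ y)))
        (Nat.ble (Nat.pow 2 64) (Nat.succ y)))
    X

/-- loop over the set bits of the mask of `X` with fuel -/
def loop (h : ℕ → Bool) (f : ℕ) : ℕ → Bool :=
  Nat.rec (motive := fun _ => ℕ → Bool) (fun _ => false) (fun _ lp X => loopStep h lp X) f

/-- `hc d X = true` if the set bits of the mask of `X` contain an increasing chain of length
`d` in which every vertex is adjacent (in its own row) to all later ones -/
def hc (d : ℕ) : ℕ → Bool :=
  Nat.rec (motive := fun _ => ℕ → Bool) (fun _ => true) (fun _ ih X => loop ih 322 X) d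

/-- the start state for the lowest vertex `a`: the neighbours `j` of `a` with `a < j < 321` -/
def start (a : ℕ) : ℕ :=
  mk (Nat.mod (Nat.shiftLeft (Nat.shiftRight big (Nat.add (Nat.mul 416 a) (Nat.succ a)))
        (Nat.succ a)) (Nat.pow 2 321))
    (Nat.mul (Nat.succ a) 512)

/-- checker over a range of lowest vertices -/
def chk (n : ℕ) : ℕ → Bool :=
  Nat.rec (motive := fun _ => ℕ → Bool) (fun _ => true)
    (fun _ ih a => Bool.rec (motive := fun _ => Bool) (ih (Nat.succ a)) false (hc 5 (start a))) n

end Vale.Agent.H8.B63
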