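import Vale.Agent.H8.B63.Search

/-!
# Soundness of the clique search of `Vale.Agent.H8.B63`

If the set bits of the mask of a state contain an increasing chain of `d` vertices in which every
vertex is adjacent to all later ones, then `hc d` answers `true`.  Consequently, if the checker
answers `false` for every start vertex below `321`, the graph has no `6`-clique on the vertices
below `321`.
-/

namespace Vale.Agent.H8.B63

open Vale.Agent.H14.Borsuk63

/-! ### Unfolding lemmas -/

theorem brec (a b : Bool) (c : Bool) :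
    (Bool.rec (motive := fun _ => Bool) a b c) = cond c b a := by
  cases c <;> rfl

theorem mk_eq (a t : ℕ) : mk a t = 2 ^ 64 * a + t % 2 ^ 64 := rfl

theorem mk_shift (a t : ℕ) : mk a t >>> 64 = a := by
  rw [mk_eq, Nat.shiftRight_eq_div_pow, Nat.mul_add_div (by norm_num),
    Nat.div_eq_of_lt (Nat.mod_lt _ (by norm_num)), Nat.add_zero]

theorem body_eq (h lp : ℕ → Bool) (X k : ℕ) : body h lp X k =
    cond (Nat.beq ((X >>> 64) % 2 ^ (k + 1)) (2 ^ k))
      (cond (h (mk ((X >>> 64 ^^^ 2 ^ k) &&& (big >>> (416 * k))) ((X + 1) * 512))) true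
        (lp (mk (X >>> 64 ^^^ 2 ^ k) (X + 1))))
      true := by
  show Bool.rec (motive := fun _ => Bool) true
    (Bool.rec (motive := fun _ => Bool) (lp (mk (X >>> 64 ^^^ 2 ^ k) (X + 1))) true
      (h (mk ((X >>> 64 ^^^ 2 ^ k) &&& (big >>> (416 * k))) ((X + 1) * 512))))
    (Nat.beq ((X >>> 64) % 2 ^ (k + 1)) (2 ^ k)) = _
  rw [brec, brec]

theorem loopStep_eq (h lp : ℕ → Bool) (X : ℕ) :
    loopStep h lp X = cond (Nat.ble (2 ^ 64) X) (body h lp X (guess X)) false := by
  cases X with
  | zero => rfl
  | succ y =>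
    have hT : ∀ n, (Nat.rec (motive := fun _ => Bool) (body h lp (Nat.succ y) 0)
        (fun j _ => body h lp (Nat.succ y) (Nat.succ j)) n) = body h lp (Nat.succ y) n := by
      intro n; cases n <;> rfl
    show Bool.rec (motive := fun _ => Bool) false (Nat.rec (motive := fun _ => Bool)
        (body h lp (Nat.succ y) 0)
        (fun j _ => body h lp (Nat.succ y) (Nat.succ j)) (guess (Nat.succ y)))
        (Nat.ble (2 ^ 64) (y + 1)) = _
    rw [hT, brec]

theorem loop_zero (h : ℕ → Bool) (X : ℕ) : loop h 0 X = false := rfl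

theorem loop_succ (h : ℕ → Bool) (f X : ℕ) : loop h (f + 1) X = loopStep h (loop h f) X := rfl

theorem hc_zero (X : ℕ) : hc 0 X = true := rfl

theorem hc_succ (d X : ℕ) : hc (d + 1) X = loop (hc d) 322 X := rfl

theorem chk_zero (a : ℕ) : chk 0 a = true := rfl

theorem chk_succ (n a : ℕ) :
    chk (n + 1) a = cond (hc 5 (start a)) false (chk n (a + 1)) := by
  show Bool.rec (motive := fun _ => Bool) (chk n (a + 1)) false (hc 5 (start a)) = _
  rw [brec]

set_option exponentiation.threshold 400 in
theorem start_eq (a : ℕ) :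
    start a = mk (((big >>> (416 * a + (a + 1))) <<< (a + 1)) % 2 ^ 321) ((a + 1) * 512) := rfl

/-! ### Chains -/

/-- `Chain d P`: there are `v_1 < ... < v_d` satisfying `P` with `adj v_i v_j = true` for
`i < j` -/
def Chain : ℕ → (ℕ → Prop) → Prop
  | 0, _ => True
  | d + 1, P => ∃ k, P k ∧ Chain d (fun j => k < j ∧ P j ∧ adj k j = true)

theorem Chain.mono : ∀ (d : ℕ) {P Q : ℕ → Prop}, (∀ j, P j → Q j) → Chain d P → Chain d Q
  | 0, _, _, _, _ => trivial
  | d + 1, _, _, hPQ, ⟨k, hk, hc⟩ =>
    ⟨k, hPQ k hk, Chain.mono d (fun j ⟨h1, h2, h3⟩ => ⟨h1, hPQ j h2, h3⟩) hc⟩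

theorem chain_of_finset : ∀ (d : ℕ) (P : ℕ → Prop) (s : Finset ℕ), d ≤ s.card →
    (∀ v ∈ s, P v) → (∀ u ∈ s, ∀ v ∈ s, u < v → adj u v = true) → Chain d P
  | 0, _, _, _, _, _ => trivial
  | d + 1, P, s, hd, hP, hadj => by
    have hne : s.Nonempty := Finset.card_pos.mp (by omega)
    refine ⟨s.min' hne, hP _ (Finset.min'_mem s hne), ?_⟩
    apply chain_of_finset d _ (s.erase (s.min' hne))
    · rw [Finset.card_erase_of_mem (Finset.min'_mem s hne)]; omega
    · intro v hv
      have hvs := Finset.mem_of_mem_erase hv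
      have hne' := Finset.ne_of_mem_erase hv
      have hlt : s.min' hne < v := lt_of_le_of_ne (Finset.min'_le s v hvs) (Ne.symm hne')
      exact ⟨hlt, hP v hvs, hadj _ (Finset.min'_mem s hne) v hvs hlt⟩
    · intro u hu v hv huv
      exact hadj u (Finset.mem_of_mem_erase hu) v (Finset.mem_of_mem_erase hv) huv

/-! ### Soundness of the search -/

theorem loop_sound (h : ℕ → Bool) (d : ℕ)
    (hh : ∀ Y, (∀ j, (Y >>> 64).testBit j = true → j < 322) →
      Chain d (fun j => (Y >>> 64).testBit j = true) → h Y = true) :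
    ∀ (f X : ℕ), (∀ j, (X >>> 64).testBit j = true → j < 322 ∧ 322 ≤ j + f) →
      Chain (d + 1) (fun j => (X >>> 64).testBit j = true) → loop h f X = true := by
  intro f
  induction f with
  | zero =>
    intro X hX ⟨k, hk, _⟩
    have := hX k hk
    omega
  | succ f ih =>
    intro X hX hch
    obtain ⟨k0, hk0, hc0⟩ := hch
    have hge : 2 ^ 64 ≤ X := by
      by_contra hlt
      have h0 : X >>> 64 = 0 := by
        rw [Nat.shiftRight_eq_div_pow]; exact Nat.div_eq_of_lt (by omega)
      rw [h0] at hk0
      simp at hk0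
    rw [loop_succ, loopStep_eq, Nat.ble_eq_true_of_le hge, cond_true, body_eq]
    generalize guess X = k
    cases hv : Nat.beq ((X >>> 64) % 2 ^ (k + 1)) (2 ^ k) with
    | false => rfl
    | true =>
      rw [cond_true]
      have hv' : (X >>> 64) % 2 ^ (k + 1) = 2 ^ k := Nat.eq_of_beq_eq_true hv
      have hlow : ∀ j, j < k + 1 → (X >>> 64).testBit j = decide (k = j) := by
        intro j hj
        have h1 := congrArg (fun n => n.testBit j) hv'
        simp only [Nat.testBit_mod_two_pow, Nat.testBit_two_pow] at h1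
        simpa [hj] using h1
      have hx2 : ∀ j, (X >>> 64 ^^^ 2 ^ k).testBit j = true ↔
          (k < j ∧ (X >>> 64).testBit j = true) := by
        intro j
        rw [Nat.testBit_xor, Nat.testBit_two_pow]
        rcases Nat.lt_trichotomy j k with hjk | hjk | hjk
        · have h1 := hlow j (by omega)
          have h2 : ¬ (k = j) := by omega
          have h3 : ¬ (k < j) := by omega
          simp [h1, h2, h3]
        · subst hjk
          have h1 := hlow j (by omega)
          simp [h1]
        · have h2 : ¬ (k = j) := by omega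
          simp [h2, hjk]
      have hk_set : (X >>> 64).testBit k = true := by
        have h1 := hlow k (by omega)
        simpa using h1
      have hk0k : k ≤ k0 := by
        by_contra hlt
        have h1 := hlow k0 (by omega)
        rw [hk0] at h1
        have h2 : ¬ (k = k0) := by omega
        simp [h2] at h1
      cases hh' : h (mk ((X >>> 64 ^^^ 2 ^ k) &&& (big >>> (416 * k))) ((X + 1) * 512)) with
      | true => rfl
      | false =>
        rw [cond_false]
        rcases Nat.eq_or_lt_of_le hk0k with heq | hlt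
        · exfalso
          subst heq
          have h1 : h (mk ((X >>> 64 ^^^ 2 ^ k) &&& (big >>> (416 * k))) ((X + 1) * 512))
              = true := by
            apply hh
            · intro j hj
              rw [mk_shift, Nat.testBit_and, Bool.and_eq_true] at hj
              exact (hX j ((hx2 j).1 hj.1).2).1
            · rw [mk_shift]
              refine Chain.mono d ?_ hc0
              intro j ⟨h1, h2, h3⟩
              rw [Nat.testBit_and, Bool.and_eq_true, Nat.testBit_shiftRight]
              exact ⟨(hx2 j).2 ⟨h1, h2⟩, h3⟩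
          rw [hh'] at h1
          cases h1
        · apply ih
          · intro j hj
            rw [mk_shift] at hj
            obtain ⟨h1, h2⟩ := (hx2 j).1 hj
            have h3 := hX j h2
            have h4 := hX k hk_set
            constructor <;> omega
          · rw [mk_shift]
            exact ⟨k0, (hx2 k0).2 ⟨hlt, hk0⟩,
              Chain.mono d (fun j ⟨h1, h2, h3⟩ => ⟨h1, (hx2 j).2 ⟨by omega, h2⟩, h3⟩) hc0⟩

theorem hc_sound : ∀ (d Y : ℕ), (∀ j, (Y >>> 64).testBit j = true → j < 322) →
    Chain d (fun j => (Y >>> 64).testBit j = true) → hc d Y = true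
  | 0, _, _, _ => rfl
  | d + 1, Y, hY, hch => by
    rw [hc_succ]
    exact loop_sound (hc d) d (hc_sound d) 322 Y (fun j hj => ⟨hY j hj, by omega⟩) hch

set_option exponentiation.threshold 400 in
theorem start_testBit (a j : ℕ) :
    (start a >>> 64).testBit j = true ↔ (a < j ∧ j < 321 ∧ adj a j = true) := by
  rw [start_eq, mk_shift, Nat.testBit_mod_two_pow, Nat.testBit_shiftLeft,
    Nat.testBit_shiftRight]
  unfold adj
  by_cases h1 : a + 1 ≤ j
  · have h2 : 416 * a + (a + 1) + (j - (a + 1)) = 416 * a + j := by omega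
    rw [h2]
    have h3 : a < j := by omega
    simp [h1, h3]
  · have h3 : ¬ (a < j) := by omega
    simp [h1, h3]

/-! ### The checker -/

/-- no chain of five vertices below `321` above a start vertex `k` with `a ≤ k < b` -/
def Good (a b : ℕ) : Prop := ∀ k, a ≤ k → k < b → hc 5 (start k) = false

theorem good_of_chk : ∀ (n a b : ℕ), chk n a = true → a + n = b → Good a b
  | 0, a, b, _, hb => fun k h1 h2 => by omega
  | n + 1, a, b, h, hb => by
    rw [chk_succ] at h
    intro k h1 h2
    cases hs : hc 5 (start a) with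
    | true => rw [hs] at h; cases h
    | false =>
      rw [hs, cond_false] at h
      rcases Nat.eq_or_lt_of_le h1 with heq | hlt
      · rw [← heq]; exact hs
      · exact good_of_chk n (a + 1) b h (by omega) k hlt h2

theorem Good.trans {a b c : ℕ} (h1 : Good a b) (h2 : Good b c) : Good a c := by
  intro k hk1 hk2
  rcases Nat.lt_or_ge k b with h | h
  · exact h1 k hk1 h
  · exact h2 k h hk2

theorem no_six_clique_of_good (hg : Good 0 321) : ∀ s : Finset ℕ, (∀ v ∈ s, v < 321) →
    (∀ u ∈ s, ∀ v ∈ s, u < v → adj u v = true) → s.card ≤ 5 := by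
  intro s hs hadj
  by_contra hcard
  have hch : Chain 6 (fun v => v < 321) := chain_of_finset 6 _ s (by omega) hs hadj
  obtain ⟨a, ha, hc5⟩ := hch
  have h1 : hc 5 (start a) = true := by
    apply hc_sound
    · intro j hj
      have h2 := (start_testBit a j).1 hj
      omega
    · exact Chain.mono 5 (fun j ⟨h1, h2, h3⟩ => (start_testBit a j).2 ⟨h1, h2, h3⟩) hc5
  rw [hg a (Nat.zero_le _) ha] at h1
  cases h1

end Vale.Agent.H8.B63
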